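import Vale.Agent.P218WW.Step

/-! Local regularity at unit scale for weak flows. -/

open MeasureTheory Set Filter Topology Metric
open scoped ENNReal RealInnerProductSpace ContDiff

namespace Vale.Agent.P218WW

open Vale.Agent.P218UA Vale.Agent.P218WA Vale.Agent.P218UW Vale.Agent.P218UM
open Vale.Agent.P218.H63 (lap hessSq)

variable {w : ℝ → E3 → ℝ} {I Z : Set ℝ} {A t : ℝ} {x : E3}

lemma aemeas_dis (hC : CalcW) (h : IsW0 w I Z A) (x₀ : E3) (t₀ : ℝ) {T : Set ℝ}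
    (hT : MeasurableSet T) (hs : T ⊆ I ∩ Iio t₀) :
    AEMeasurable (dis w x₀ t₀) (volume.restrict T) := by
  classical
  have hO : IsOpen (((I \ Z) ∩ Iio t₀) ×ˢ (univ : Set E3)) :=
    (h.isOpen_reg.inter isOpen_Iio).prod isOpen_univ
  have hc : ContinuousOn (dd w x₀ t₀) (((I \ Z) ∩ Iio t₀) ×ˢ univ) := fun p hp => by
    obtain ⟨a, b, a1, -, a3⟩ := h.loc hp.1.1
    exact ((cont_dd a3.toIsFlow x₀ t₀).continuousAt (((isOpen_Ioo.inter isOpen_Iio).prod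
      isOpen_univ).mem_nhds ⟨⟨a1, hp.1.2⟩, trivial⟩)).continuousWithinAt
  have hm := (ENNReal.continuous_ofReal.comp_continuousOn hc).measurable_piecewise
    (g := fun _ => 0) continuousOn_const hO.measurableSet
  refine ((hC.stm_meas w I Z A h _ hm).mono_measure
    (Measure.restrict_mono (hs.trans inter_subset_left) le_rfl)).congr ?_
  filter_upwards [ae_restrict_mem hT, ae_restrict_of_ae (ae_notMem h.null)] with t ht hZ
  exact lintegral_congr fun y =>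
    piecewise_eq_of_mem _ _ _ ⟨⟨⟨(hs ht).1, hZ⟩, (hs ht).2⟩, mem_univ _⟩

lemma dis_small (hM : MonoW) (h : IsW0 w I Z A) {x₀ : E3} {t₀ t₁ t₂ ε : ℝ} (h₀ : t₀ ∈ I)
    (h₁ : t₁ ∈ I \ Z) (h12 : t₁ ≤ t₂) (h20 : t₂ < t₀) (hx : w t₀ x₀ = 0) (hε : 0 ≤ ε)
    (hd : gd (ar (w t₁)) x₀ √(t₀ - t₁) ≤ 1 + ε) :
    ∫⁻ t in Ioo t₁ t₂, dis w x₀ t₀ t ≤ ENNReal.ofReal ε := by
  obtain ⟨s, hs, hsZ⟩ := exists_notMem h.null h20
  have h₂ : s ∈ I \ Z := ⟨h.conn.out h₁.1 h₀ ⟨h12.trans hs.1.le, hs.2.le⟩, hsZ⟩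
  have a1 := (hM.mono w I Z A h x₀ t₀ t₁ h₁ s h₂ (h12.trans hs.1.le) hs.2).trans
    (ENNReal.ofReal_le_ofReal hd)
  have a2 := ENNReal.ofReal_le_ofReal (hM.clear w I Z A h t₀ h₀ x₀ hx s h₂ hs.2)
  rw [ENNReal.ofReal_add zero_le_one hε] at a1
  exact (lintegral_mono_set (Ioo_subset_Ioo_right hs.1.le)).trans
    ((ENNReal.add_le_add_iff_left ENNReal.ofReal_ne_top).1 ((add_le_add a2 le_rfl).trans a1))

/-- two points of the final surface that span a definite area with the origin -/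
lemma exists_pts (h : IsFlow w I) (hI0 : (0 : ℝ) ∈ I)
    (hb : ∀ x, ‖x‖ ≤ 1 → w 0 x = 0 → SS (unc w) (0, x) ≤ 1) (h0 : w 0 0 = 0) :
    ∃ a b : E3, ‖a‖ ≤ 1 ∧ ‖b‖ ≤ 1 ∧ w 0 a = 0 ∧ w 0 b = 0 ∧ 1 / 10 ^ 4 ≤ ∑ i, crs a b i ^ 2 := by
  have hn : ‖gradient (w 0) 0‖ = 1 := (h.eik 0 hI0 0 h0).self_of_nhds
  set n := gradient (w 0) 0 with hn'
  obtain ⟨u, -, hu⟩ := P218UG.exists_disc (k := ∞) (w := w 0) (x := 0) (n := n) (by norm_cast)
    (P218UX.slice h hI0).smooth hn h0 (a := 1) (r := 1) (R := 3 / 20) (θ := 0)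
    (by simp [hn']) (fun y hy hy1 => by
      have := norm_hs_sq_le (isOpen_st h.isOpen) (sm_flow h) (t := 0) (x := y)
        ⟨hI0, mem_univ _⟩
      rw [hessSq_eq_SS h hI0] at this
      exact (sq_le_one_iff₀ (norm_nonneg _)).1
        (this.trans (hb y (by simpa using hy1) hy)))
    (by norm_num) (by norm_num)
  have hr : Module.finrank ℝ (P218GA.hyp n) = 2 :=
    P218GA.finrank_hyp P218UX.rank3 (by rw [← norm_ne_zero_iff, hn]; exact one_ne_zero)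
  let e : OrthonormalBasis (Fin 2) ℝ (P218GA.hyp n) :=
    (stdOrthonormalBasis ℝ _).reindex (finCongr hr)
  have he : ∀ i, ‖(1 / 10 : ℝ) • e i‖ = 1 / 10 := fun i => by
    rw [norm_smul, e.norm_eq_one]; norm_num
  have hg : ∀ η ζ : P218GA.hyp n,
      ⟪P218UG.gr 0 n u η, P218UG.gr 0 n u ζ⟫ = ⟪η, ζ⟫ + u η * u ζ := fun η ζ => by
    simp only [P218UG.gr, zero_add, inner_add_left, inner_add_right, real_inner_smul_left,
      real_inner_smul_right, P218GA.inner_hyp, real_inner_comm n (η : E3),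
      real_inner_self_eq_norm_sq, hn, Submodule.coe_inner]
    ring
  obtain ⟨-, a1, -, a2, -⟩ := hu _ ((he 0).trans_lt (by norm_num))
  obtain ⟨-, b1, -, b2, -⟩ := hu _ ((he 1).trans_lt (by norm_num))
  rw [he, sub_zero] at a2 b2
  refine ⟨_, _, by linarith, by linarith, a1, b1, ?_⟩
  rw [crs_sq, ← real_inner_self_eq_norm_sq, ← real_inner_self_eq_norm_sq, hg, hg, hg,
    real_inner_self_eq_norm_sq, real_inner_self_eq_norm_sq, he, he, real_inner_smul_left,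
    real_inner_smul_right, e.inner_eq_zero (by decide)]
  nlinarith [mul_self_nonneg (u ((1 / 10 : ℝ) • e 0)), mul_self_nonneg (u ((1 / 10 : ℝ) • e 1))]

/-- the tilt is controlled by three dissipations -/
lemma tilt_le (h : IsFlow w I) (htI : t ∈ I) {τ : ℝ} (hτ : 0 < τ) (ht1 : -1 ≤ t) (ht : t ≤ -τ / 2) {a b : E3}
    (ha : ‖a‖ ≤ 1) (hb : ‖b‖ ≤ 1) : ENNReal.ofReal (mm w (tl (crs a b) (unc w)) t)
      ≤ ENNReal.ofReal (32 * Real.exp (2 / τ)) * (dis w 0 0 t + dis w a 0 t + dis w b 0 t) := by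
  have ht0 : t < 0 := by linarith
  have hm : ∀ z, Measurable fun y => ENNReal.ofReal (dd w z 0 (t, y)) := fun z =>
    (ENNReal.continuous_ofReal.comp ((cont_dd h z 0).comp_continuous
      (Continuous.prodMk_right t) fun y => ⟨⟨htI, ht0⟩, mem_univ _⟩)).measurable
  rw [dis_eq, dis_eq, dis_eq, ← lintegral_add_left (hm _), ← lintegral_add_right _ (hm _),
    ← lintegral_const_mul' _ _ ENNReal.ofReal_ne_top, mm, ofReal_integral_eq_lintegral_ofReal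
      (integrable_psi h htI ht0 ((sm_flow h).tl (isOpen_st h.isOpen) _))
      ((ae_track h htI).mono fun x hx =>
        mul_nonneg (psi_nonneg ht0 x) (tl_nonneg _ (eik_track h htI hx)))]
  refine lintegral_mono_ae ((ae_track h htI).mono fun x hx => ?_)
  rw [← ENNReal.ofReal_add (dd_nonneg ht0) (dd_nonneg ht0), ← ENNReal.ofReal_add
    (add_nonneg (dd_nonneg ht0) (dd_nonneg ht0)) (dd_nonneg ht0),
    ← ENNReal.ofReal_mul (by positivity)]
  refine ENNReal.ofReal_le_ofReal ?_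
  rcases le_or_gt ‖x‖ 1 with hx1 | hx1
  swap
  · rw [psi_zero t hx1.le, zero_mul]
    exact mul_nonneg (by positivity)
      (add_nonneg (add_nonneg (dd_nonneg ht0) (dd_nonneg ht0)) (dd_nonneg ht0))
  have a0 := dd_ge (w := w) hτ ht (a := 0) (by simp) hx1
  have a1 := dd_ge (w := w) hτ ht ha hx1
  have a2 := dd_ge (w := w) hτ ht hb hx1
  have a3 := crs_tilt ha hb (h.eik t htI x hx).self_of_nhds
  simp only [gradient_apply ((sm_flow h).diffAt (isOpen_st h.isOpen)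
    (show (t, x) ∈ I ×ˢ (univ : Set E3) from ⟨htI, mem_univ _⟩))] at a3
  have key : ∀ z : E3, ⟪z, gradient (w t) x⟫ ^ 2
      ≤ 8 * ((lap (w t) x - ⟪x - 0, gradient (w t) x⟫ / (2 * (0 - t))) ^ 2
        + (lap (w t) x - ⟪x - z, gradient (w t) x⟫ / (2 * (0 - t))) ^ 2) := fun z => by
    obtain ⟨p, hp⟩ : ∃ p, p = lap (w t) x - ⟪x - 0, gradient (w t) x⟫ / (2 * (0 - t)) := ⟨_, rfl⟩
    obtain ⟨q, hq⟩ : ∃ q, q = lap (w t) x - ⟪x - z, gradient (w t) x⟫ / (2 * (0 - t)) := ⟨_, rfl⟩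
    have e : ⟪z, gradient (w t) x⟫ = 2 * -t * (q - p) := by
      have := ht0.ne
      rw [hp, hq, sub_zero, inner_sub_left, zero_sub]
      field_simp
      ring
    have a4 : t ^ 2 ≤ 1 := by nlinarith
    rw [← hp, ← hq, e]
    nlinarith [sq_nonneg (q + p), sq_nonneg (q - p)]
  have a5 : tl (crs a b) (unc w) (t, x)
      ≤ 32 * ((lap (w t) x - ⟪x - 0, gradient (w t) x⟫ / (2 * (0 - t))) ^ 2
        + (lap (w t) x - ⟪x - a, gradient (w t) x⟫ / (2 * (0 - t))) ^ 2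
        + (lap (w t) x - ⟪x - b, gradient (w t) x⟫ / (2 * (0 - t))) ^ 2) := by
    refine le_trans a3 ?_
    linarith [key a, key b, sq_nonneg (lap (w t) x - ⟪x - a, gradient (w t) x⟫ / (2 * (0 - t))),
      sq_nonneg (lap (w t) x - ⟪x - b, gradient (w t) x⟫ / (2 * (0 - t)))]
  have := mul_le_mul_of_nonneg_left a5 (psi_nonneg ht0 x)
  linarith

lemma mm_congr (h : IsW0 w I Z A) (ht : t ∈ I) {F G : ST → ℝ}
    (e : ∀ x, ‖x‖ ≤ 1 → w t x = 0 → F (t, x) = G (t, x)) : mm w F t = mm w G t := by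
  refine integral_congr_ae ((P218UX.ae_ar (h.slice ht).smooth.continuous).mono fun x hx => ?_)
  rcases le_or_gt ‖x‖ 1 with h1 | h1
  · simp only [e x h1 hx]
  · simp only [psi_zero t h1.le, zero_mul]

/-- **local regularity at unit scale** -/
theorem core (hC : CalcW) (hM : MonoW) (A : ℝ) {κ : ℝ} (hκ : 0 < κ) : ∃ ε > 0, ∀ w I Z,
    CfgW w I Z A → ∀ T ∈ I \ Z, T ≤ -1 →
    (∀ x, ‖x‖ ≤ 1 → w 0 x = 0 → gd (ar (w T)) x √(0 - T) ≤ 1 + ε) → w 0 0 = 0 →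
    SS (unc w) (0, 0) ≤ κ := by
  obtain ⟨K, hK, hder⟩ := exists_step hC
  obtain ⟨L, hL0, hL⟩ : ∃ L, 0 < L ∧ K * A ≤ L := ⟨max 1 (K * A), by simp, le_max_right _ _⟩
  obtain ⟨b, hb⟩ : ∃ b, b = Real.exp (-6) * κ / (2 * 10 ^ 4) := ⟨_, rfl⟩
  have hb0 : 0 < b := by rw [hb]; positivity
  obtain ⟨τ, hτ0, hτ1, hτ⟩ : ∃ τ, 0 < τ ∧ τ ≤ 1 / 2 ∧ L * τ ≤ b :=
    ⟨min (1 / 2) (b / L), by positivity, min_le_left _ _,
      (le_div_iff₀' hL0).1 (min_le_right _ _)⟩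
  obtain ⟨C, hC'⟩ : ∃ C, C = 32 * Real.exp (2 / τ) := ⟨_, rfl⟩
  have hC0 : 0 < C := by rw [hC']; positivity
  obtain ⟨g, hg⟩ : ∃ g, g = Real.exp (-4) * (b * (τ / 4)) := ⟨_, rfl⟩
  have hg0 : 0 < g := by rw [hg]; positivity
  refine ⟨g * τ / (12 * C), by positivity, fun w I Z h T hT hT1 hd h0 => ?_⟩
  by_contra hcon
  rw [not_le] at hcon
  have hc : IsCompact (Icc (-1 : ℝ) 0 ×ˢ closedBall (0 : E3) 1) :=
    isCompact_Icc.prod (isCompact_closedBall _ _)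
  have hI : ∀ u, -τ ≤ u → u ≤ 0 → u ∈ I := fun u h1 h2 => h.sub ⟨by linarith, h2⟩
  have hP : ∀ u x, -τ ≤ u → u ≤ 0 → ‖x‖ ≤ 1 →
      (u, x) ∈ Icc (-1 : ℝ) 0 ×ˢ closedBall (0 : E3) 1 := fun u x h1 h2 h3 =>
    ⟨⟨by linarith, h2⟩, mem_closedBall_zero_iff.2 h3⟩
  obtain ⟨FS, hS, hS0, hS1⟩ := glue h.toIsW0 ev_SS hc h.reg
  obtain ⟨a₀, b₀, hI0, hIZ, hF0⟩ := h.loc (t := 0) ⟨hI 0 (by linarith) le_rfl, h.notMem h0⟩
  have hKA : 0 ≤ K * A := mul_nonneg hK (by linarith [h.one_le])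
  have hLu : ∀ u, -τ ≤ u → u < 0 → K * A * -u ≤ b := fun u h1 h2 =>
    (mul_le_mul hL (by linarith) (by linarith) hL0.le).trans hτ
  have hexp : ∀ k u : ℝ, 0 ≤ k → -τ ≤ u → u ≤ 0 →
      1 ≤ Real.exp (-k * u) ∧ Real.exp (-k) * Real.exp (-k * u) ≤ 1 := fun k u hk h1 h2 => by
    rw [← Real.exp_add]
    exact ⟨Real.one_le_exp (by nlinarith), Real.exp_le_one_iff.2 (by nlinarith)⟩
  have h6 : Real.exp 6 * Real.exp (-6) = 1 := by rw [← Real.exp_add]; simp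
  have hnn : ∀ F : ST → ℝ, (∀ p, 0 ≤ F p) → ∀ u < 0, 0 ≤ mm w F u := fun F hF u hu =>
    integral_nonneg fun x => mul_nonneg (psi_nonneg hu x) (hF _)
  -- lower bound for the weighted curvature
  have hm : ∀ t, -τ ≤ t → t < 0 → t ∉ Z → 10 ^ 4 * b ≤ mm w FS t := by
    intro t h1 h2 h3
    obtain ⟨s, hs, hsI, hs'⟩ := exists_mm_ge hF0.toIsFlow hI0 h0 hS hS0 (c := κ)
      (by rwa [(hS1 _ (hP 0 0 (by linarith) le_rfl (by simp)) h0).eq_of_nhds]) h2
    have a1 := hder w I Z A h FS (fun p => 6 * FS p + 0 * FS p) hS (by fun_prop) hS0 6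
      (Real.exp 6 * b) t s (by linarith) hs.1.le hs.2 h3 (hIZ hsI).2
      fun u hu huZ => by
      have u1 : -τ ≤ u := h1.trans hu.1
      have u2 : u < 0 := hu.2.trans_lt hs.2
      obtain ⟨a, b', a1, -, a3⟩ := h.loc (t := u) ⟨hI u u1 u2.le, huZ⟩
      refine ⟨fun x hx hx0 => ?_, ?_⟩
      · have c0 := hS1 _ (hP u x u1 u2.le hx) hx0
        have c1 := h.bd u ⟨by linarith, u2.le⟩ x hx hx0
        have c2 := SS_nonneg (unc w) (u, x)
        rw [heat_congr w c0, c0.eq_of_nhds]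
        exact ⟨c1, (heat_SS a3.toIsFlow a1 hx0).trans (by nlinarith)⟩
      · rw [mm_lin a3.toIsFlow a1 u2 hS.contDiffOn hS.contDiffOn]
        refine (mul_le_mul_of_nonneg_left (show _ ≤ b by linarith [hLu u u1 u2])
          (Real.exp_pos _).le).trans (mul_le_mul_of_nonneg_right (Real.exp_le_exp.2 ?_) hb0.le)
        linarith
    have a2 : κ ≤ Real.exp (-6 * s) * mm w FS s :=
      hs'.trans (le_mul_of_one_le_left (hκ.le.trans hs')
        (hexp 6 s (by norm_num) (h1.trans hs.1.le) hs.2.le).1)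
    have a3 : Real.exp 6 * b * (s - t) ≤ κ / 2 := by
      have : Real.exp 6 * b = κ / (2 * 10 ^ 4) := by rw [hb, ← mul_div_assoc, ← mul_assoc, h6, one_mul]
      rw [this]
      nlinarith [hs.1, hs.2]
    have a4 := mul_le_mul_of_nonneg_left (show κ / 2 ≤ Real.exp (-6 * t) * mm w FS t by
      linarith) (Real.exp_pos (-6)).le
    have a5 := mul_le_of_le_one_left (hnn FS hS0 t h2) (hexp 6 t (by norm_num) h1 h2.le).2
    rw [hb]
    linarith
  obtain ⟨p, q, hp, hq, hp0, hq0, hn⟩ :=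
    exists_pts hF0.toIsFlow hI0 (h.bd 0 ⟨by norm_num, le_rfl⟩) h0
  have hn1 : ∑ i, crs p q i ^ 2 ≤ 1 := by
    rw [crs_sq]
    nlinarith [sq_nonneg ⟪p, q⟫, mul_le_one₀ (pow_le_one₀ (n := 2) (norm_nonneg _) hp)
      (sq_nonneg ‖q‖) (pow_le_one₀ (n := 2) (norm_nonneg _) hq)]
  obtain ⟨FT, hT', hT0, hT2⟩ := glue h.toIsW0 (ev_tl2 (crs p q)) hc h.reg
  have hT3 : ∀ u x, -τ ≤ u → u ≤ 0 → ‖x‖ ≤ 1 → w u x = 0 →
      FT =ᶠ[𝓝 (u, x)] tl (crs p q) (unc w) := fun u x u1 u2 hx hx0 => by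
    obtain ⟨a, b', a1, -, a3⟩ := h.loc (t := u) ⟨hI u u1 u2, h.notMem hx0⟩
    exact (hT2 _ (hP u x u1 u2 hx) hx0).trans (tl2_germ a3.toIsFlow a1 hx0 _)
  -- lower bound for the weighted tilt
  have hG : ∀ t, -τ ≤ t → t ≤ -τ / 2 → t ∉ Z → g ≤ mm w FT t := by
    intro t h1 h2 h3
    obtain ⟨s, hs, hsZ⟩ := exists_notMem h.null (show -τ / 4 < 0 by linarith)
    have a1 := hder w I Z A h FT (fun z => (-2 * ∑ i, crs p q i ^ 2) * FS z + 4 * FT z) hT'
      (by fun_prop) hT0 4 (-b) t s (by linarith) (by linarith [hs.1]) hs.2 h3 hsZ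
      fun u hu huZ => by
      have u1 : -τ ≤ u := h1.trans hu.1
      have u2 : u < 0 := hu.2.trans_lt hs.2
      obtain ⟨a, b', a1, -, a3⟩ := h.loc (t := u) ⟨hI u u1 u2.le, huZ⟩
      refine ⟨fun x hx hx0 => ?_, ?_⟩
      · have c0 := hT3 u x u1 u2.le hx hx0
        have c1 := h.bd u ⟨by linarith, u2.le⟩ x hx hx0
        have c2 := tl_nonneg (crs p q) (eik_track a3.toIsFlow a1 hx0)
        rw [heat_congr w c0, c0.eq_of_nhds, (hS1 _ (hP u x u1 u2.le hx) hx0).eq_of_nhds]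
        exact ⟨(tl_le _).trans hn1, (heat_tl a3.toIsFlow a1 hx0 _).trans (by nlinarith)⟩
      · rw [mm_lin a3.toIsFlow a1 u2 hS.contDiffOn hT'.contDiffOn]
        have c3 := mul_le_mul hn (hm u u1 u2 huZ) (by positivity) (by linarith)
        refine (mul_le_mul_of_nonneg_left (show _ ≤ -b by linarith [hLu u u1 u2])
          (Real.exp_pos _).le).trans ?_
        nlinarith [(hexp 4 u (by norm_num) u1 u2.le).1]
    have a2 := mul_nonneg (Real.exp_pos (-4 * s)).le (hnn FT hT0 s hs.2)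
    have a4 := mul_le_mul_of_nonneg_left
      (show b * (τ / 4) ≤ Real.exp (-4 * t) * mm w FT t by nlinarith [hs.1])
      (Real.exp_pos (-4)).le
    have a5 := mul_le_of_le_one_left (hnn FT hT0 t (by linarith))
      (hexp 4 t (by norm_num) h1 (by linarith)).2
    rw [hg]
    linarith
  have hsub : Ioo (-τ) (-τ / 2) ⊆ I ∩ Iio 0 := fun u hu =>
    ⟨hI u hu.1.le (by linarith [hu.2]), show u < 0 by linarith [hu.2]⟩
  have hdis : ∀ z : E3, ‖z‖ ≤ 1 → w 0 z = 0 →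
      ∫⁻ t in Ioo (-τ) (-τ / 2), dis w z 0 t ≤ ENNReal.ofReal (g * τ / (12 * C)) := fun z hz hz0 =>
    (lintegral_mono_set (Ioo_subset_Ioo_left (by linarith))).trans
      (dis_small hM h.toIsW0 (hI 0 (by linarith) le_rfl) hT (by linarith) (by linarith) hz0
        (by positivity) (hd z hz hz0))
  have a1 : ∫⁻ _ in Ioo (-τ) (-τ / 2), ENNReal.ofReal g ≤ ∫⁻ t in Ioo (-τ) (-τ / 2),
      ENNReal.ofReal C * (dis w 0 0 t + dis w p 0 t + dis w q 0 t) := by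
    refine lintegral_mono_ae ?_
    filter_upwards [ae_restrict_mem measurableSet_Ioo, ae_restrict_of_ae (ae_notMem h.null)]
      with t ht htZ
    obtain ⟨a, b', a1, -, a3⟩ := h.loc (t := t) ⟨(hsub ht).1, htZ⟩
    have a4 := hG t ht.1.le ht.2.le htZ
    rw [mm_congr h.toIsW0 (hsub ht).1 fun x hx hx0 =>
      (hT3 t x ht.1.le (le_of_lt (hsub ht).2) hx hx0).eq_of_nhds] at a4
    exact (ENNReal.ofReal_le_ofReal a4).trans
      (hC' ▸ tilt_le a3.toIsFlow a1 hτ0 (by linarith [ht.1]) ht.2.le hp hq)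
  rw [lintegral_const_mul' _ _ ENNReal.ofReal_ne_top, lintegral_add_right' _
    (aemeas_dis hC h.toIsW0 q 0 measurableSet_Ioo hsub), lintegral_add_right' _
    (aemeas_dis hC h.toIsW0 p 0 measurableSet_Ioo hsub), setLIntegral_const, Real.volume_Ioo,
    ← ENNReal.ofReal_mul hg0.le] at a1
  have a2 := a1.trans (mul_le_mul_right (add_le_add (add_le_add (hdis 0 (by simp) h0)
    (hdis p hp hp0)) (hdis q hq hq0)) _)
  rw [← ENNReal.ofReal_add (by positivity) (by positivity), ← ENNReal.ofReal_add (by positivity)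
    (by positivity), ← ENNReal.ofReal_mul hC0.le, ENNReal.ofReal_le_ofReal_iff (by positivity)] at a2
  have a3 : C * (g * τ / (12 * C) + g * τ / (12 * C) + g * τ / (12 * C)) = g * τ / 4 := by
    field_simp
    ring
  nlinarith [mul_pos hg0 hτ0]

end Vale.Agent.P218WW
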