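import Vale.Agent.P218WA.Props
import Vale.Agent.P218UW.White

/-! Global smooth extensions of even expressions in the signed distance function of a flow which
is regular at all the points of a compact set. -/

open MeasureTheory Set Filter Topology Metric
open scoped RealInnerProductSpace ContDiff Manifold

namespace Vale.Agent.P218WW

open Vale.Agent.P218UA Vale.Agent.P218WA Vale.Agent.P218UW

variable {w : ℝ → E3 → ℝ} {I Z : Set ℝ} {A : ℝ}

/-- a local, even and nonnegative differential expression -/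
structure Ev (Φ : (ST → ℝ) → ST → ℝ) : Prop where
  sm : ∀ V W, IsOpen V → Sm V W → Sm V (Φ W)
  nonneg : ∀ W p, 0 ≤ Φ W p
  germ : ∀ (W W' : ST → ℝ) (p : ST) (σ : ℝ), (σ = 1 ∨ σ = -1) →
    (W =ᶠ[𝓝 p] fun q => σ * W' q) → Φ W =ᶠ[𝓝 p] Φ W'

lemma dx_germ {W W' : ST → ℝ} {p : ST} {σ : ℝ} (h : W =ᶠ[𝓝 p] fun q => σ * W' q) (a : Fin 3) :
    dx a W =ᶠ[𝓝 p] fun q => σ * dx a W' q := by
  filter_upwards [h.fderiv (𝕜 := ℝ)] with q hq
  have e : fderiv ℝ (fun q => σ * W' q) = σ • fderiv ℝ W' := fderiv_const_smul_field σ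
  simp only [dx, dv, hq, e, Pi.smul_apply, smul_apply, smul_eq_mul]

lemma sq_sign {σ : ℝ} (h : σ = 1 ∨ σ = -1) : σ * σ = 1 := by rcases h with rfl | rfl <;> norm_num

lemma ev_SS : Ev SS where
  sm _ _ hV h := h.SS hV
  nonneg := SS_nonneg
  germ W W' p σ hσ h := by
    have h1 : ∀ᶠ q in 𝓝 p, ∀ a b, dx a (dx b W) q = σ * dx a (dx b W') q :=
      eventually_all.2 fun a => eventually_all.2 fun b => dx_germ (dx_germ h b) a
    filter_upwards [h1] with q hq
    refine Finset.sum_congr rfl fun a _ => Finset.sum_congr rfl fun b _ => ?_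
    rw [hq, mul_mul_mul_comm, sq_sign hσ, one_mul]

/-- the tilt, in a form which is nonnegative everywhere -/
noncomputable def tl2 (N : Fin 3 → ℝ) (W : ST → ℝ) : ST → ℝ := fun q =>
  (∑ a, N a ^ 2) * (∑ a, dx a W q * dx a W q) - om N W q * om N W q

lemma ev_tl2 (N : Fin 3 → ℝ) : Ev (tl2 N) where
  sm _ _ hV h := ((Sm.const _).mul (Sm.sum fun a _ => (h.dx hV a).mul (h.dx hV a))).sub
    ((h.om hV N).mul (h.om hV N))
  nonneg W p := by
    have := Finset.sum_mul_sq_le_sq_mul_sq Finset.univ N (fun a => dx a W p)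
    simp only [sq] at this
    simp only [tl2, om, sq]
    linarith
  germ W W' p σ hσ h := by
    have h1 : ∀ᶠ q in 𝓝 p, ∀ a, dx a W q = σ * dx a W' q :=
      eventually_all.2 fun a => dx_germ h a
    filter_upwards [h1] with q hq
    have e1 : ∑ a, dx a W q * dx a W q = ∑ a, dx a W' q * dx a W' q :=
      Finset.sum_congr rfl fun a _ => by rw [hq, mul_mul_mul_comm, sq_sign hσ, one_mul]
    have e2 : om N W q = σ * om N W' q := by
      simp only [om, hq, Finset.mul_sum]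
      exact Finset.sum_congr rfl fun a _ => by ring
    simp only [tl2]
    rw [e1, e2, mul_mul_mul_comm, sq_sign hσ, one_mul]

lemma tl2_germ (h : IsFlow w I) {t : ℝ} {x : E3} (ht : t ∈ I) (h0 : w t x = 0) (N : Fin 3 → ℝ) :
    tl2 N (unc w) =ᶠ[𝓝 (t, x)] tl N (unc w) := by
  obtain ⟨V, hp, -, hE⟩ := exists_eik h ht h0
  filter_upwards [hE.isOpen.mem_nhds hp] with q hq
  have := hE.eik q hq
  simp only [sq] at this
  simp only [tl2, tl, this, mul_one]

lemma heat_congr (w : ℝ → E3 → ℝ) {F G : ST → ℝ} {t : ℝ} {x : E3} (h : F =ᶠ[𝓝 (t, x)] G) :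
    heat w (cur F) t x = heat w (cur G) t x := by
  have h1 : cur F t =ᶠ[𝓝 x] cur G t :=
    (continuous_const.prodMk continuous_id).continuousAt.eventually h
  have h2 : (fun s => cur F s x) =ᶠ[𝓝 t] fun s => cur G s x :=
    (continuous_id.prodMk continuous_const).continuousAt.eventually h
  have h3 : gradient (cur F t) =ᶠ[𝓝 x] gradient (cur G t) := h1.gradient
  simp only [heat, hs]
  rw [h2.deriv_eq, h3.fderiv_eq]

/-- **gluing** -/
theorem glue (h : IsW0 w I Z A) {Φ : (ST → ℝ) → ST → ℝ} (hΦ : Ev Φ) {K : Set ST}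
    (hK : IsCompact K) (hr : ∀ p ∈ K, RegAt w Z p) :
    ∃ F : ST → ℝ, ContDiff ℝ ∞ F ∧ (∀ p, 0 ≤ F p) ∧
      ∀ p ∈ K, w p.1 p.2 = 0 → F =ᶠ[𝓝 p] Φ (unc w) := by
  have hr' : ∀ p ∈ K, ∃ v N C, IsCompact C ∧ p ∈ interior C ∧ C ⊆ N ∧ Loc w Z v N := fun p hp => by
    obtain ⟨v, N, h1, h2⟩ := hr p hp
    obtain ⟨C, c1, c2, c3⟩ := exists_compact_subset h2.isOpen h1
    exact ⟨v, N, C, c1, c2, c3, h2⟩
  choose! v N C c1 c2 c3 c4 using hr'
  obtain ⟨s, hs1, hs2⟩ := hK.elim_nhds_subcover (fun p => interior (C p))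
    fun p hp => isOpen_interior.mem_nhds (c2 p hp)
  obtain ⟨L, l1, l2, l3⟩ := exists_compact_between hK
    (isOpen_biUnion fun p _ => isOpen_interior) hs2
  obtain ⟨g, hg⟩ := exists_contMDiffMap_forall_mem_convex_of_local (n := ⊤) 𝓘(ℝ, ST)
    (t := fun y : ST => {c : ℝ | 0 ≤ c ∧ (y ∈ L →
      (∀ i ∈ s, y ∈ C i → Φ (v i) y = Φ (unc w) y) → c = Φ (unc w) y)})
    (fun y a ha b hb α β hα hβ hs => ⟨by
      have := ha.1
      have := hb.1
      simp only [smul_eq_mul]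
      positivity, fun h1 h2 => by
      rw [ha.2 h1 h2, hb.2 h1 h2, ← add_smul, hs, one_smul]⟩)
    (fun x => by
      by_cases hx : x ∈ L
      · obtain ⟨i, hi, hx'⟩ := mem_iUnion₂.1 (l3 hx)
        refine ⟨interior (C i), isOpen_interior.mem_nhds hx', Φ (v i), ?_,
          fun y hy => ⟨hΦ.nonneg _ _, fun _ h2 => h2 i hi (interior_subset hy)⟩⟩
        exact ((hΦ.sm _ _ (c4 i (hs1 i hi)).isOpen (c4 i (hs1 i hi)).smooth).mono
          (interior_subset.trans (c3 i (hs1 i hi)))).contMDiffOn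
      · exact ⟨Lᶜ, l1.isClosed.isOpen_compl.mem_nhds hx, fun _ => 0, contMDiffOn_const,
          fun y hy => ⟨le_rfl, fun h1 => absurd h1 hy⟩⟩)
  refine ⟨g, g.contMDiff.contDiff, fun p => (hg p).1, fun p hp h0 => ?_⟩
  have h1 : ∀ᶠ y in 𝓝 p, ∀ i ∈ s, y ∈ C i → Φ (v i) y = Φ (unc w) y := by
    refine (eventually_all_finset s).2 fun i hi => ?_
    have hL := c4 i (hs1 i hi)
    by_cases hp' : p ∈ C i
    · have hN := c3 i (hs1 i hi) hp'
      obtain ⟨σ, a1, a2⟩ := hL.pm p hN (h.notMem h0) ((hL.zero p hN (h.notMem h0)).2 h0)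
      exact (hΦ.germ _ (unc w) p σ a1 a2).mono fun y hy _ => hy
    · exact mem_of_superset ((c1 i (hs1 i hi)).isClosed.isOpen_compl.mem_nhds hp')
        fun y hy hy' => absurd hy' hy
  filter_upwards [h1, mem_interior_iff_mem_nhds.1 (l2 hp)] with y a1 a2
  exact (hg y).2 a2 a1

end Vale.Agent.P218WW
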