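import Vale.Agent.P218WW.Glue
import Vale.Agent.P218UX.Mono

/-! Integrated differential inequalities for weighted integrals along a weak flow. -/

open MeasureTheory Set Filter Topology Metric
open scoped ENNReal RealInnerProductSpace ContDiff

namespace Vale.Agent.P218WW

open Vale.Agent.P218UA Vale.Agent.P218WA Vale.Agent.P218UW Vale.Agent.P218UM
open Vale.Agent.P218.H63 (lap hessSq)

/-- a weak flow which is regular, with `|A|² ≤ 1`, in the unit parabolic cylinder -/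
structure CfgW (w : ℝ → E3 → ℝ) (I Z : Set ℝ) (A : ℝ) : Prop extends IsW0 w I Z A where
  sub : Icc (-1) 0 ⊆ I
  reg : ∀ p ∈ Icc (-1 : ℝ) 0 ×ˢ closedBall (0 : E3) 1, RegAt w Z p
  bd : ∀ t ∈ Icc (-1 : ℝ) 0, ∀ x, ‖x‖ ≤ 1 → w t x = 0 → SS (unc w) (t, x) ≤ 1

variable {w : ℝ → E3 → ℝ} {I Z : Set ℝ} {A t : ℝ} {F G : ST → ℝ} {x : E3}

/-- the integrand of Green's inequality at a regular time -/
theorem exists_inner_le : ∃ K : ℝ, 0 ≤ K ∧ ∀ w I A, IsARFlow w I A → ∀ t ∈ I, -1 ≤ t → t < 0 →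
    (∀ x, ‖x‖ ≤ 1 → w t x = 0 → SS (unc w) (t, x) ≤ 1) →
    ∀ (F R : ST → ℝ) (c : ℝ), 0 ≤ c → Sm (I ×ˢ univ) F → Sm (I ×ˢ univ) R →
    (∀ x, ‖x‖ ≤ 1 → w t x = 0 → 0 ≤ F (t, x) ∧ F (t, x) ≤ c ∧ heat w (cur F) t x ≤ R (t, x)) →
    ∫ x, (psi t x * heat w (cur F) t x + cur F t x * adj w psi t x) ∂(ar (w t))
      ≤ mm w R t + c * (K * A * -t) := by
  obtain ⟨K, hK, hle⟩ := adj_psi_le
  refine ⟨K, hK, fun w I A h t htI ht1 ht0 hbd F R c hc hF hR hb => ?_⟩
  have hneg : 0 < -t := neg_pos.2 ht0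
  have := (h.ratio t htI).locFin
  obtain ⟨h1, -⟩ := P218UX.green' h.toIsFlow (h.isOpen.inter isOpen_Iio) inter_subset_left
    (ψ := psi) (f := cur F) (fun p hp => (contDiffAt_psi (n := 2) hp.1.2 p.2).contDiffWithinAt)
    ((hF.mono (prod_mono inter_subset_left subset_rfl)).of_le (by norm_cast))
    (isCompact_closedBall 0 1)
    (fun s _ y hy => psi_zero s (by rw [mem_closedBall_zero_iff, not_le] at hy; exact hy.le))
    (show t ∈ I ∩ Iio 0 from ⟨htI, ht0⟩)
  have h3 : Integrable ((closedBall (0 : E3) 1).indicator fun _ => c * (K * -t)) (ar (w t)) :=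
    (integrableOn_const (isCompact_closedBall 0 1).measure_lt_top.ne).integrable_indicator
      measurableSet_closedBall
  have h4 := integrable_psi h.toIsFlow htI ht0 hR
  refine (integral_mono_ae h1 (h4.add h3) ((ae_track h.toIsFlow htI).mono fun x hx => ?_)).trans ?_
  · rcases le_or_gt ‖x‖ 1 with hx1 | hx1
    · obtain ⟨a1, a2, a3⟩ := hb x hx1 hx
      have a4 := hle w t x ht1 ht0 (h.eik t htI x hx).self_of_nhds hx1
        (abs_lap_le h.toIsFlow htI (hbd x hx1 hx))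
      have a5 : F (t, x) * adj w psi t x ≤ c * (K * -t) :=
        (mul_le_mul_of_nonneg_left a4 a1).trans (mul_le_mul_of_nonneg_right a2 (by positivity))
      simp only [Pi.add_apply, indicator_of_mem (mem_closedBall_zero_iff.2 hx1)]
      exact add_le_add (mul_le_mul_of_nonneg_left a3 (psi_nonneg ht0 x)) a5
    · simp only [Pi.add_apply, indicator_of_notMem (mt mem_closedBall_zero_iff.1 hx1.not_ge),
        psi_zero t hx1.le, adj_psi_zero ht0 hx1]
      simp
  · rw [integral_add' h4 h3, integral_indicator measurableSet_closedBall, setIntegral_const,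
      smul_eq_mul]
    have := mul_le_mul_of_nonneg_right ((h.ratio t htI).real_le (by linarith [h.one_le]) 0 one_pos)
      (show 0 ≤ c * (K * -t) by positivity)
    unfold mm
    linarith

lemma heat_exp (w : ℝ → E3 → ℝ) (hF : ContDiff ℝ ∞ F) (k t : ℝ) (x : E3) :
    heat w (cur fun p => Real.exp (-k * p.1) * F p) t x
      = Real.exp (-k * t) * heat w (cur F) t x + -k * Real.exp (-k * t) * F (t, x) := by
  have h1 : ContDiffAt ℝ 2 (cur F t) x := slice_x (f := cur F) (hF.of_le (by norm_cast)).contDiffAt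
  have h2 : DifferentiableAt ℝ (fun s => cur F s x) t :=
    (slice_t (f := cur F) (n := 1) (hF.of_le (by norm_cast)).contDiffAt).differentiableAt
      one_ne_zero
  have h3 := ((((hasDerivAt_id' t).const_mul (-k)).exp).mul h2.hasDerivAt).deriv
  have h4 := trT_const_mul (Real.exp (-k * t)) h1 (gradient (w t) x)
  have e1 : (fun s => cur (fun p => Real.exp (-k * p.1) * F p) s x)
      = (fun s => Real.exp (-k * s)) * fun s => cur F s x := rfl
  have e2 : cur (fun p => Real.exp (-k * p.1) * F p) t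
      = fun y => Real.exp (-k * t) * cur F t y := rfl
  simp only [heat]
  rw [e1, e2, h3, h4]
  simp only [cur]
  ring

lemma test_psi (h : Icc (-1 : ℝ) 0 ⊆ I) : Test 2 I (Ioo (-1) 0) psi :=
  ⟨isOpen_Ioo, ordConnected_Ioo, Ioo_subset_Icc_self.trans h,
    fun p hp => (contDiffAt_psi (n := 2) hp.1.2 p.2).contDiffWithinAt, _, isCompact_closedBall 0 1,
    fun s _ y hy => psi_zero s (by rw [mem_closedBall_zero_iff, not_le] at hy; exact hy.le)⟩

/-- the integrated differential inequality -/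
theorem exists_step (hC : CalcW) : ∃ K : ℝ, 0 ≤ K ∧ ∀ w I Z A, CfgW w I Z A → ∀ F R : ST → ℝ,
    ContDiff ℝ ∞ F → ContDiff ℝ ∞ R → (∀ p, 0 ≤ F p) → ∀ k β t s : ℝ, -1 < t → t ≤ s → s < 0 →
    t ∉ Z → s ∉ Z → (∀ u ∈ Icc t s, u ∉ Z →
      (∀ x, ‖x‖ ≤ 1 → w u x = 0 → F (u, x) ≤ 1 ∧ heat w (cur F) u x ≤ R (u, x)) ∧
      Real.exp (-k * u) * (mm w R u + K * A * -u - k * mm w F u) ≤ β) →
    Real.exp (-k * s) * mm w F s - Real.exp (-k * t) * mm w F t ≤ β * (s - t) := by
  obtain ⟨K, hK, hle⟩ := exists_inner_le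
  refine ⟨K, hK, fun w I Z A h F R hF hR hF0 k β t s ht hts hs htZ hsZ hb => ?_⟩
  have hG : ContDiff ℝ ∞ fun p : ST => Real.exp (-k * p.1) * F p :=
    (Real.contDiff_exp.comp (contDiff_const.mul contDiff_fst)).mul hF
  obtain ⟨h1, h2⟩ := hC.green w I Z A h.toIsW0 _ psi (cur fun p => Real.exp (-k * p.1) * F p)
    (test_psi h.sub) (hG.of_le (by norm_cast)).contDiffOn t ⟨⟨ht, hts.trans_lt hs⟩, htZ⟩
    s ⟨⟨ht.trans_le hts, hs⟩, hsZ⟩ hts fun u hu x =>
      mul_nonneg (psi_nonneg (hu.2.trans_lt hs) x) (mul_nonneg (Real.exp_pos _).le (hF0 _))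
  have e : ∀ u, ∫ x, psi u x * cur (fun p => Real.exp (-k * p.1) * F p) u x ∂(ar (w u))
      = Real.exp (-k * u) * mm w F u := fun u => by
    rw [mm, ← integral_const_mul]
    exact integral_congr_ae (Eventually.of_forall fun x => by simp only [cur]; ring)
  rw [e, e] at h2
  refine h2.trans ((intervalIntegral.integral_mono_ae_restrict hts h1
    (intervalIntegrable_const (c := β)) ?_).trans (by simp [mul_comm]))
  filter_upwards [ae_restrict_mem measurableSet_Icc, ae_restrict_of_ae (ae_notMem h.null)]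
    with u hu huZ
  have u1 : -1 ≤ u := (ht.trans_le hu.1).le
  have u2 : u < 0 := hu.2.trans_lt hs
  obtain ⟨a, b, a1, -, a3⟩ := h.loc (t := u) ⟨h.sub ⟨u1, u2.le⟩, huZ⟩
  obtain ⟨b1, b2⟩ := hb u hu huZ
  have b3 := hle w _ A a3 u a1 u1 u2 (h.bd u ⟨u1, u2.le⟩) _
    (fun p => Real.exp (-k * u) * R p + -k * Real.exp (-k * u) * F p) (Real.exp (-k * u))
    (Real.exp_pos _).le hG.contDiffOn
    (((Sm.const _).mul hR.contDiffOn).add ((Sm.const _).mul hF.contDiffOn)) fun x hx hx0 =>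
      ⟨mul_nonneg (Real.exp_pos _).le (hF0 _),
        mul_le_of_le_one_right (Real.exp_pos _).le (b1 x hx hx0).1, by
        rw [heat_exp w hF]
        exact add_le_add (mul_le_mul_of_nonneg_left (b1 x hx hx0).2 (Real.exp_pos _).le) le_rfl⟩
  rw [mm_lin a3.toIsFlow a1 u2 hR.contDiffOn hF.contDiffOn] at b3
  refine b3.trans ?_
  linarith

/-- lower bound for the weighted integral near the final time -/
lemma exists_mm_ge (h : IsFlow w I) (hI0 : (0 : ℝ) ∈ I) (h0 : w 0 0 = 0) (hF : ContDiff ℝ ∞ F)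
    (hF0 : ∀ p, 0 ≤ F p) {c : ℝ} (hc : c < F (0, 0)) (ht : t < 0) :
    ∃ s ∈ Ioo t 0, s ∈ I ∧ c ≤ mm w F s := by
  have hc1 : Continuous fun p : ST => chi p.2 * F p :=
    (chi.continuous.comp continuous_snd).mul hF.continuous
  have h1 := P218UX.monoThm.dens w I h 0 hI0 0 h0 _ hc1.continuousAt hc1.measurable
    (fun p => mul_nonneg chi.nonneg (hF0 p)) c
    (by rw [chi.one_of_mem_closedBall (by simp [chi]), one_mul]; exact hc)
  have h2 : ∀ᶠ r in 𝓝[>] (0 : ℝ), t < 0 - r ^ 2 ∧ 0 - r ^ 2 ∈ I := by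
    have : ContinuousAt (fun r : ℝ => 0 - r ^ 2) 0 := by fun_prop
    exact ((this.eventually (lt_mem_nhds (by simp [ht]))).and
      (this.eventually (h.isOpen.mem_nhds (by simpa using hI0)))).filter_mono nhdsWithin_le_nhds
  obtain ⟨r, ⟨a1, a2, a5⟩, a3⟩ := ((h1.and h2).and self_mem_nhdsWithin).exists
  have a4 : 0 - r ^ 2 < 0 := by
    have : 0 < r := a3
    have : 0 < r ^ 2 := by positivity
    linarith
  refine ⟨0 - r ^ 2, ⟨a2, a4⟩, a5, ?_⟩
  rw [← ENNReal.ofReal_le_ofReal_iff (mm_nonneg h a5 a4 fun x _ => hF0 _), mm,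
    ofReal_integral_eq_lintegral_ofReal (integrable_psi h a5 a4 hF.contDiffOn)
      (Eventually.of_forall fun x => mul_nonneg (psi_nonneg a4 x) (hF0 _))]
  refine a1.trans (le_of_eq (lintegral_congr fun y => ?_))
  rw [psi, Ph, sub_zero, zero_sub, neg_neg]
  congr 1
  ring

end Vale.Agent.P218WW
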