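import Vale.Agent.P218WW.Core

/-! White's local regularity theorem for weak flows which are regular in a parabolic cylinder, by
point picking and rescaling. -/

open MeasureTheory Set Filter Topology Metric
open scoped ENNReal RealInnerProductSpace ContDiff

namespace Vale.Agent.P218WW

open Vale.Agent.P218UA Vale.Agent.P218WA Vale.Agent.P218UW
open Vale.Agent.P218.H63 (lap hessSq)

/-- **White's local regularity theorem** -/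
theorem white (hC : CalcW) (hM : MonoW) : WhiteW := by
  intro A η hη
  obtain ⟨θ, hθ0, hθ1, hθ⟩ : ∃ θ, 0 < θ ∧ θ ≤ 1 ∧ θ ≤ η ^ 2 :=
    ⟨min 1 (η ^ 2), by positivity, min_le_left _ _, min_le_right _ _⟩
  obtain ⟨ε, hε, hcore⟩ := core hC hM A (κ := θ / 16) (by positivity)
  refine ⟨ε, hε, fun w I Z h x₀ t₀ T ρ hρ hI hT hT' hd h0 => ?_⟩
  by_contra hcon
  rw [not_le] at hcon
  have hρ2 : 0 < ρ ^ 2 := by positivity
  have hI' : Icc (t₀ - ρ ^ 2) t₀ ⊆ I :=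
    (Icc_subset_Icc_left (by linarith)).trans (h.conn.out hT.1 hI)
  have hc : IsCompact (Icc (t₀ - ρ ^ 2) t₀ ×ˢ closedBall x₀ ρ) :=
    isCompact_Icc.prod (isCompact_closedBall _ _)
  obtain ⟨F, hF, -, hF1⟩ := glue h ev_SS hc fun p hp => (hd p.1 hp.1 p.2 hp.2).1
  obtain ⟨D, hD⟩ : ∃ D : ST → ℝ, D = fun p => min ((ρ - ‖p.2 - x₀‖) ^ 2) (p.1 - t₀ + ρ ^ 2) :=
    ⟨_, rfl⟩
  have hp0 : (t₀, x₀) ∈ Icc (t₀ - ρ ^ 2) t₀ ×ˢ closedBall x₀ ρ ∩ unc w ⁻¹' {0} :=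
    ⟨⟨⟨by linarith, le_rfl⟩, mem_closedBall_self hρ.le⟩, h0⟩
  have hbdd : BddAbove ((fun p => SS (unc w) p * D p) ''
      (Icc (t₀ - ρ ^ 2) t₀ ×ˢ closedBall x₀ ρ ∩ unc w ⁻¹' {0})) := by
    obtain ⟨B, hB⟩ := hc.bddAbove_image (f := fun p => F p * D p)
      (hF.continuous.mul (by rw [hD]; fun_prop)).continuousOn
    refine ⟨B, ?_⟩
    rintro _ ⟨p, hp, rfl⟩
    have := hB (mem_image_of_mem _ hp.1)
    rwa [(hF1 p hp.1 hp.2).eq_of_nhds] at this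
  obtain ⟨M, hM'⟩ : ∃ M, M = sSup ((fun p => SS (unc w) p * D p) ''
      (Icc (t₀ - ρ ^ 2) t₀ ×ˢ closedBall x₀ ρ ∩ unc w ⁻¹' {0})) := ⟨_, rfl⟩
  have hmax : ∀ p ∈ Icc (t₀ - ρ ^ 2) t₀ ×ˢ closedBall x₀ ρ ∩ unc w ⁻¹' {0},
      SS (unc w) p * D p ≤ M := fun p hp => hM' ▸ le_csSup hbdd (mem_image_of_mem _ hp)
  have a0 : θ < M := by
    refine lt_of_lt_of_le ?_ (hmax _ hp0)
    obtain ⟨a, b, a1, -, a3⟩ := h.loc (t := t₀) ⟨hI, h.notMem h0⟩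
    have b1 := norm_hs_sq_le (isOpen_st isOpen_Ioo) (sm_flow a3.toIsFlow) (t := t₀) (x := x₀)
      ⟨a1, mem_univ _⟩
    rw [hessSq_eq_SS a3.toIsFlow a1] at b1
    have b2 := pow_lt_pow_left₀ hcon (by positivity) two_ne_zero
    rw [div_pow, div_lt_iff₀ hρ2] at b2
    have b3 : D (t₀, x₀) = ρ ^ 2 := by simp [hD]
    simp only [b3]
    nlinarith
  obtain ⟨_, ⟨⟨t₁, x₁⟩, ⟨⟨ht₁, hx₁⟩, hw₁⟩, rfl⟩, a1⟩ := exists_lt_of_lt_csSup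
    ⟨_, mem_image_of_mem _ hp0⟩ (hM' ▸ max_lt a0 (show M / 2 < M by linarith))
  rw [mem_closedBall_iff_norm] at hx₁
  simp only [mem_Icc, max_lt_iff] at ht₁ hx₁ a1
  obtain ⟨S₁, hS₁⟩ : ∃ S₁, S₁ = SS (unc w) (t₁, x₁) := ⟨_, rfl⟩
  obtain ⟨D₁, hD₁⟩ : ∃ D₁, D₁ = D (t₁, x₁) := ⟨_, rfl⟩
  have d1 : D₁ ≤ (ρ - ‖x₁ - x₀‖) ^ 2 := by rw [hD₁, hD]; exact min_le_left _ _
  have d2 : D₁ ≤ t₁ - t₀ + ρ ^ 2 := by rw [hD₁, hD]; exact min_le_right _ _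
  rw [← hS₁, ← hD₁, ← hM'] at a1
  have hS0 : 0 < S₁ := by
    refine lt_of_le_of_ne (hS₁ ▸ SS_nonneg _ _) fun e => ?_
    rw [← e, zero_mul] at a1
    linarith [a1.1]
  have hD0 : 0 < D₁ := (mul_pos_iff_of_pos_left hS0).1 (hθ0.trans a1.1)
  obtain ⟨σ, hσ, hσ2⟩ : ∃ σ, 0 < σ ∧ σ ^ 2 * S₁ = θ / 8 :=
    ⟨√(θ / (8 * S₁)), by positivity, by rw [Real.sq_sqrt (by positivity)]; field_simp⟩
  have s1 : σ ^ 2 ≤ D₁ / 4 := le_of_mul_le_mul_right (by linarith [a1.1]) hS0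
  have s2 : 2 * σ ≤ ρ - ‖x₁ - x₀‖ :=
    (abs_le_of_sq_le_sq' (by linarith) (by linarith)).2
  have s3 : σ ≤ ρ := by linarith [norm_nonneg (x₁ - x₀)]
  have hx : ∀ x : E3, ‖x‖ ≤ 1 → ‖x₁ + σ • x - x₀‖ ≤ ‖x₁ - x₀‖ + σ := fun x hx => by
    rw [add_sub_right_comm]
    refine (norm_add_le _ _).trans (add_le_add le_rfl ?_)
    rw [norm_smul, Real.norm_eq_abs, abs_of_pos hσ]
    exact mul_le_of_le_one_right hσ.le hx
  have ht : ∀ t ∈ Icc (-1 : ℝ) 0, t₁ - σ ^ 2 ≤ t₁ + σ ^ 2 * t ∧ t₁ + σ ^ 2 * t ≤ t₁ := fun t ht => by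
    constructor <;> nlinarith [ht.1, ht.2, sq_nonneg σ]
  have hT2 : ∀ t ∈ Icc (-1 : ℝ) 0, t₁ + σ ^ 2 * t ∈ Icc (t₀ - ρ ^ 2) t₀ := fun t h1 =>
    ⟨by linarith [(ht t h1).1], by linarith [(ht t h1).2]⟩
  have hcfg : CfgW (rs w t₁ x₁ σ) (pre t₁ σ I) (pre t₁ σ Z) A := by
    refine ⟨hC.rs0 w I Z A h t₁ x₁ σ hσ, fun t h1 => hI' (hT2 t h1), fun p hp =>
      hC.rsReg w Z t₁ x₁ σ p hσ (hd _ (hT2 _ hp.1) _ (mem_closedBall_iff_norm.2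
        (by linarith [hx p.2 (mem_closedBall_zero_iff.1 hp.2)]))).1, fun t h1 x h2 h3 => ?_⟩
    have h4 := (sc_eq_zero hσ.ne').1 h3
    obtain ⟨a, b, c1, -, c3⟩ := h.loc ⟨hI' (hT2 t h1), h.notMem h4⟩
    rw [SS_rs c3.toIsFlow x₁ x hσ c1]
    have b1 := hx x h2
    have b2 := hmax (t₁ + σ ^ 2 * t, x₁ + σ • x)
      ⟨⟨hT2 t h1, mem_closedBall_iff_norm.2 (by linarith)⟩, h4⟩
    have b3 : D₁ / 4 ≤ D (t₁ + σ ^ 2 * t, x₁ + σ • x) := by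
      rw [hD]
      refine le_min ?_ (by linarith [(ht t h1).1])
      have := pow_le_pow_left₀ (by linarith)
        (show (ρ - ‖x₁ - x₀‖) / 2 ≤ ρ - ‖x₁ + σ • x - x₀‖ by linarith) 2
      linarith
    have b4 := mul_le_mul_of_nonneg_left b3 (SS_nonneg (unc w) (t₁ + σ ^ 2 * t, x₁ + σ • x))
    have b5 : SS (unc w) (t₁ + σ ^ 2 * t, x₁ + σ • x) ≤ 8 * S₁ :=
      le_of_mul_le_mul_right (by linarith [a1.2]) hD0
    nlinarith [sq_nonneg σ]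
  have hσ2' : 0 < σ ^ 2 := by positivity
  have e : t₁ + σ ^ 2 * ((T - t₁) / σ ^ 2) = T := by field_simp; ring
  have a2 := hcore _ _ _ hcfg ((T - t₁) / σ ^ 2)
    ⟨show t₁ + _ ∈ I by rw [e]; exact hT.1, show t₁ + _ ∉ Z by rw [e]; exact hT.2⟩
    (by rw [div_le_iff₀ hσ2']; nlinarith) (fun x h2 h3 => by
    have e' : σ * √(0 - (T - t₁) / σ ^ 2) = √(t₁ - T) := by
      rw [← Real.sqrt_sq hσ.le, ← Real.sqrt_mul hσ2'.le, Real.sqrt_sq hσ.le]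
      congr 1
      field_simp
      ring
    rw [rs, gd_sc hσ, e, e']
    rw [rs, sc_eq_zero hσ.ne', mul_zero, add_zero] at h3
    exact (hd t₁ ht₁ _ (mem_closedBall_iff_norm.2 (by linarith [hx x h2]))).2 h3)
    (by rw [rs, sc_eq_zero hσ.ne', mul_zero, add_zero, smul_zero, add_zero]; exact hw₁)
  obtain ⟨a, b, c1, -, c3⟩ := h.loc (t := t₁) ⟨hI' ht₁, h.notMem hw₁⟩
  rw [SS_rs c3.toIsFlow x₁ 0 hσ (by simpa using c1), mul_zero, add_zero, smul_zero, add_zero,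
    ← hS₁] at a2
  linarith

end Vale.Agent.P218WW
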